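import Vale.Agent.P283B.GaAr
import Vale.Agent.P287D.Ad.All
import Vale.Agent.P287D.Mm.Eng
import Vale.Agent.P287D.Va.Des

/-!
# P283B, block GA: the leaves ADJ, VERT, FOLH
-/

open Set Filter Topology
open Vale.Agent.P287D

noncomputable section

namespace Vale.Agent.P283B.Ga

section tools

variable {K : Type} [Field K] [Algebra ℂ K] {n : ℕ} {Λ β G : BD K}

/-- a small positive number -/
theorem exists_small {ι : Type} (T : Finset ι) (a b : ι → ℝ) :
    ∃ u : ℝ, 0 < u ∧ ∀ i ∈ T, 0 < a i → u * b i < a i := by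
  have ev : ∀ᶠ u : ℝ in 𝓝 0, ∀ i ∈ T, 0 < a i → u * b i < a i := by
    refine (eventually_all_finset T).2 fun i _ => ?_
    by_cases p : 0 < a i
    · exact ((by fun_prop : Continuous fun u : ℝ => u * b i).continuousAt.eventually_lt
        continuousAt_const (by simpa using p)).mono fun _ q _ => q
    · exact .of_forall fun _ q => absurd q p
  obtain ⟨u, p, q⟩ := ((ev.filter_mono nhdsWithin_le_nhds).and
    (self_mem_nhdsWithin (s := Ioi (0 : ℝ)))).exists
  exact ⟨u, q, p⟩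

/-- the support on a model is finite -/
theorem fin_sup (hK : FF K (n + 1)) (hΛ : Smp Λ) (hb : Big Λ) (hβ : β ∈ Car K) :
    {P | On n Λ P ∧ β P ≠ 0}.Finite := by
  obtain ⟨s, -, a⟩ := hΛ.exists_ampOn
  exact ((Api.mod.isb n K hK).1 β hβ s (a.big_iff.1 hb)).subset fun P p =>
    ⟨(Mm.on_amp res' hK a).1 p.1, p.2⟩

theorem fin_pos (hK : FF K (n + 1)) (hΛ : Smp Λ) (hb : Big Λ) (hβ : β ∈ Car K) :
    {P | On n Λ P ∧ 0 < β P}.Finite :=
  (fin_sup hK hΛ hb hβ).subset fun _ p => ⟨p.1, p.2.ne'⟩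

/-- a divisor is dominated by an effective divisor with a larger support -/
theorem dom (hK : FF K (n + 1)) (hb : Big Λ) (dβ : Dsc Λ β) (dG : Dsc Λ G) (G0 : 0 ≤ G)
    (h : ∀ P, On n Λ P → 0 < β P → 0 < G P) : ∃ c : ℝ, 0 < c ∧ β ≤ c • G := by
  have f := fin_pos hK dβ.smp hb dβ.car
  obtain ⟨u, u0, hu⟩ := exists_small f.toFinset G β
  refine ⟨u⁻¹, inv_pos.2 u0, sub_nonneg.1 (Gs.det Api.neg hK dβ.smp hb ((dG.smul _).sub dβ)
    fun P o => ?_)⟩
  rw [Pi.sub_apply, Pi.smul_apply, smul_eq_mul, sub_nonneg]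
  rcases le_or_gt (β P) 0 with e | e
  · exact e.trans (mul_nonneg (inv_pos.2 u0).le (G0 P))
  · rw [le_inv_mul_iff₀ u0]
    exact (hu P (f.mem_toFinset.2 ⟨o, e⟩) (h P o e)).le

end tools

/-- **VERT** -/
theorem vert : VERT := fun n K _ _ hK Λ B β T Q hΛ hb hB dB dβ β0 h hQ => by
  have z : β T = 0 := le_antisymm (not_lt.1 fun k => by
    obtain ⟨P, o, p, c⟩ := ((Api.neg.nn n K hK Λ β hΛ hb dβ fun P _ => β0 P).2 T).1 k
    exact h P o p (c.of_dsc dB)) (β0 T)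
  obtain ⟨G, r, g, p⟩ := exists_rep_not_cle (fin_pos hK hΛ hb dβ.car) hB fun P k => h P k.1 k.2
  have dG := dB.congr r.2
  obtain ⟨c, -, le⟩ := dom hK hb dβ dG r.1 fun P o k => p P ⟨o, k⟩
  have x := res_mono hK T dβ.car (dG.smul c).car le (by rw [z, Pi.smul_apply, g, smul_zero]) Q
  rw [res_smul hK T c dG.car, Pi.smul_apply, (res_rep hK T hB.car r g).hor
    (Api.ffs.rsd n K hK T) (res_smp hK T hB) hQ, smul_zero] at x
  exact ⟨z, le_antisymm x (res_nonneg hK T dβ.car β0 z Q)⟩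

/-- **FOLH** -/
theorem folh : FOLH := fun n K _ _ hK B Γ T Q hB hΓ e hQ => by
  obtain ⟨R, a, -, -, b, c⟩ := a2 n K hK T Q {Γ} B 0 (finite_singleton Γ)
    (singleton_subset_iff.2 hΓ) hB.car
  refine ⟨R, a.1, fun G r k => (r.1 T).lt_of_ne fun z => ?_, by simpa [e] using c Γ rfl⟩
  have x := (b G r z.symm).1
  rw [(res_rep hK T hB.car r z.symm).hor (Api.ffs.rsd n K hK T) (res_smp hK T hB) hQ] at x
  exact k.not_ge x

/-- **ADJ** -/
theorem adj' : ADJ := fun n p I δ γ K _ _ hK L Γ M κ M' T U h hp δ0 hL hb oT hT hh hκ hM nM pM dΓ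
    out eT Q oQ lc co => by
  classical
  have p0 : (0 : ℝ) < p := Nat.cast_pos.2 hp
  have hU : ∀ R ∈ U.erase T, Hull (n + 1) L R.δ (h R) := fun R k => hh R (Finset.mem_of_mem_erase k)
  have h1 := hκ.add (hh T hT)
  have dS : Dsc L (∑ R ∈ U.erase T, (-dsc (n + 2) Γ R) • h R) :=
    Dsc.sum hL _ fun R k => (hU R k).1.smul _
  have e1 : Γ + M = κ + h T + ∑ R ∈ U.erase T, (-dsc (n + 2) Γ R) • h R + M' := by
    refine Gs.det_eq Api.neg hK hL hb dΓ ((h1.1.add dS).add hM.1) fun P o => ?_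
    have x : (∑ R ∈ U.erase T, (-dsc (n + 2) Γ R) • h R) P =
        if P ∈ U.erase T then -dsc (n + 2) Γ P else 0 := by
      rw [Finset.sum_apply, ← Finset.sum_ite_eq _ P fun R => -dsc (n + 2) Γ R]
      exact Finset.sum_congr rfl fun R k => by
        rw [Pi.smul_apply, (hU R k).2 P o, smul_eq_mul, Pl.δ]
        split_ifs <;> simp
    rw [Pi.add_apply, Pi.add_apply, Pi.add_apply, x, h1.2 P o, hM.2 P o, Pi.add_apply]
    by_cases a : P = T
    · subst a
      rw [if_neg (Finset.notMem_erase _ _), Pl.δ_self]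
      simp only [dsc, Pi.sub_apply] at eT
      linarith
    · rw [Pl.δ_ne a]
      split_ifs with b
      · simp [dsc]
      · have := out P o fun k => b (Finset.mem_erase.2 ⟨a, k⟩)
        simp only [dsc, Pi.sub_apply] at this
        linarith
  have cM := sub_mem hM.1.car nM.car
  have e2 : dsc (n + 1) (adj (n + 1) T Γ) Q = dsc (n + 1) (adj (n + 1) T (κ + h T)) Q -
      (∑ R ∈ U.erase T, res T (h R) Q * (1 - (dsc (n + 2) Γ R + 1)) + res T (M' - M) Q) := by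
    have x : Γ = κ + h T + (∑ R ∈ U.erase T, (-dsc (n + 2) Γ R) • h R + (M' - M)) := by
      rw [← add_assoc, ← add_sub_assoc, ← e1, add_sub_cancel_right]
    conv_lhs => rw [x]
    rw [(a4 _ K hK T _ h1.1.car _ (add_mem dS.car cM)).1, Pr.dsc_add, res_add hK T dS.car cM,
      res_sum hK T _ fun R k => ((hU R k).1.smul _).car, Pi.add_apply, Finset.sum_apply]
    congr 2
    exact Finset.sum_congr rfl fun R k => by
      rw [res_smul hK T _ (hU R k).1.car, Pi.smul_apply, smul_eq_mul]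
      ring
  have x0 : ∀ R ∈ U.erase T, 0 ≤ res T (h R) Q := fun R k =>
    res_nonneg hK T (hU R k).1.car (Gs.det Api.neg hK hL hb (hU R k).1 fun P o => by
      rw [(hU R k).2 P o, Pl.δ]
      split_ifs <;> simp) (by
        rw [(hU R k).2 T oT, Pl.δ_ne (Finset.ne_of_mem_erase k).symm]) Q
  have y0 : 0 ≤ res T (M' - M) Q :=
    res_nonneg hK T cM (sub_nonneg.2 (Mm.le_hull Api.neg hK hb nM hM.1 fun P o => (hM.2 P o).ge))
      (by rw [Pi.sub_apply, hM.2 T oT, sub_self]) Q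
  have co' : ∀ R ∈ U.erase T, res T (h R) Q ≠ 0 → Co I δ (dsc (n + 2) Γ R + 1) := fun R k =>
    co R (Finset.mem_of_mem_erase k) (Finset.ne_of_mem_erase k)
  rcases le_or_gt (dsc (n + 1) (adj (n + 1) T (κ + h T)) Q) (-1) with w | w
  · have nn : ∀ R ∈ U.erase T, 0 ≤ res T (h R) Q * (1 - (dsc (n + 2) Γ R + 1)) := fun R k => by
      by_cases z : res T (h R) Q = 0
      · rw [z, zero_mul]
      · exact mul_nonneg (x0 R k) (sub_nonneg.2 (co' R k z).1)
    have n1 := Finset.sum_nonneg nn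
    refine ⟨⟨by linarith, .inr (.inr (by linarith))⟩, fun g1 _ g3 R a b z _ u => ?_⟩
    have k := Finset.mem_erase.2 ⟨b, a⟩
    have := mul_pos ((x0 R k).lt_of_ne' z) (by linarith : 0 < 1 - (dsc (n + 2) Γ R + 1))
    linarith [Finset.single_le_sum nn k]
  obtain ⟨r, r0, er, hr⟩ := a6 n K hK L T hL hb oT _ h1 Q oQ w
  have r1 : (0 : ℝ) < r := Nat.cast_pos.2 r0
  have nat : ∀ (x : ℝ) (k : ℤ), 0 ≤ x → x = k / r → ∃ c : ℕ, x = c / r := fun x k a b => by
    have : (0 : ℝ) ≤ k := by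
      have := mul_nonneg a r1.le
      rwa [b, div_mul_cancel₀ _ r1.ne'] at this
    obtain ⟨c, rfl⟩ := Int.eq_ofNat_of_zero_le (Int.cast_nonneg_iff.1 this)
    exact ⟨c, b⟩
  have hc : ∀ R ∈ U.erase T, ∃ c : ℕ, res T (h R) Q = c / r := fun R k => by
    obtain ⟨z, hz⟩ := (hr _ (hU R k).1 fun P o => by
      rw [(hU R k).2 P o, Pl.δ]
      split_ifs
      exacts [⟨1, by simp⟩, ⟨0, by simp⟩]).1
    exact nat _ z (x0 R k) hz
  choose! c hc using hc
  obtain ⟨c₀, h₀⟩ : ∃ c₀ : ℕ, p * res T (M' - M) Q = c₀ / r := by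
    obtain ⟨z, hz⟩ := (hr _ (hM.1.smul p) fun P o => by
      rw [Pi.smul_apply, hM.2 P o]
      exact CarZ.int pM P).1
    obtain ⟨z', hz'⟩ := CarZ.int (res_carZ hK T pM) Q
    refine nat _ (z - z' * r) (mul_nonneg p0.le y0) ?_
    rw [res_smul hK T _ hM.1.car] at hz
    rw [res_smul hK T _ nM.car] at hz'
    rw [res_sub hK T hM.1.car nM.car, Pi.sub_apply, mul_sub]
    simp only [Pi.smul_apply, smul_eq_mul] at hz hz'
    rw [hz, hz']
    push_cast
    field_simp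
  have e : dsc (n + 1) (adj (n + 1) T Γ) Q + 1 =
      (1 - (∑ R ∈ U.erase T, c R * (1 - (dsc (n + 2) Γ R + 1)) + c₀ / p)) / r := by
    have x : ∑ R ∈ U.erase T, res T (h R) Q * (1 - (dsc (n + 2) Γ R + 1)) =
        (∑ R ∈ U.erase T, c R * (1 - (dsc (n + 2) Γ R + 1))) / r := by
      rw [Finset.sum_div]
      exact Finset.sum_congr rfl fun R k => by rw [hc R k]; ring
    have y : res T (M' - M) Q = c₀ / r / p := (eq_div_iff p0.ne').2 ((mul_comm _ _).trans h₀)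
    rw [e2, er, x, y]
    field_simp
    ring
  have co'' : ∀ R ∈ U.erase T, c R ≠ 0 → Co I δ (dsc (n + 2) Γ R + 1) := fun R k z =>
    co' R k (hc R k ▸ div_ne_zero (Nat.cast_ne_zero.2 z) r1.ne')
  refine ⟨co_dv r0 δ0 co'' e, fun g1 g2 g3 R a b z u v => ?_⟩
  have k := Finset.mem_erase.2 ⟨b, a⟩
  obtain ⟨s, t⟩ := pos_dv (A := fun R => dsc (n + 2) Γ R + 1) r0 g1 g2 g3 co'' e (by linarith) k
    (fun y => z (by rw [hc R k, y, Nat.cast_zero, zero_div])) (by linarith) v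
  exact ⟨by linarith, t⟩

end Vale.Agent.P283B.Ga
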