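import Vale.Agent.P283B.Spec
import Vale.Agent.P287D.Pr.Lr
import Vale.Agent.P287D.Mm.Run
import Vale.Agent.P287D.Mm.Mft

/-!
# P283B, block ACC: log resolutions which see the exceptional primes, dlt models
-/

open Set Filter Topology

noncomputable section

namespace Vale.Agent.P283B.Acc

open P287D P287D.Mm

variable {K : Type} [Field K] [Algebra ℂ K] {n : ℕ} {Λ Ω Γ M A : BD K}

/-- a log resolution over `V Λ`; the exceptional primes are in `T` -/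
theorem exists_lsx (hM : MOD) (hK : FF K (n + 1)) (hΛ : Smp Λ) (hb : Big Λ) {T₀ : Set (Pl K)}
    (hT : T₀.Finite) {B : Set (BD K)} (hB : B.Finite) (hc : ∀ β ∈ B, β ∈ Car K) :
    ∃ (s : Finset K) (κ : BD K) (T : Finset (Pl K)) (h : Pl K → BD K), LS n (mx s) κ T h ∧
      (∀ P ∈ T₀, P ∈ T) ∧ Sup n (mx s) T κ ∧ (∀ β ∈ B, Sup n (mx s) T β) ∧ Dsc (mx s) Λ ∧
      ∀ P, On n (mx s) P → P ∉ T → On n Λ P := by
  obtain ⟨t, κ₀, ht, kz, -, -, -, -⟩ := hM.ex n K hK ∅ ∅ finite_empty finite_empty (empty_subset _)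
  obtain ⟨s, κ, T, h, l, a, b, c⟩ := exists_ls hK (hT.union (hM.exc n K hK _ _ ht.smp ht.big hΛ hb))
    ((hB.insert κ₀).insert Λ) (forall_mem_insert.2 ⟨hΛ.car, forall_mem_insert.2 ⟨CarZ.car kz, hc⟩⟩)
  refine ⟨s, κ, T, h, l, fun P p => a P (.inl p), b, fun β p => c β (.inr (.inr p)),
    (c Λ (.inl rfl)).1, fun P p q => by_contra fun r => q (a P (.inr ⟨by_contra fun w => ?_, r⟩))⟩
  have x := ht.pos P w
  have y := l.d0 p
  have z := b.2 P p q
  have u := (c κ₀ (.inr (.inl rfl))).2 P p q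
  simp only [dsc, Pi.sub_apply] at x y
  linarith

/-- ample plus nef is ample on a high model -/
theorem amp_add {s : Finset K} (hs : ∀ A, Dsc A (mx s) → Smp (M + A)) (d : Dsc Ω (mx s))
    (dM : Dsc Ω M) (hA : AmpOn Ω A) : AmpOn Ω (A + M) := by
  have h := hA.smul one_half_pos
  have k := h.add_smp (hs _ (h.dsc'.trans d)) (dM.add h.1)
  rwa [show (1 / 2 : ℝ) • A + (M + (1 / 2 : ℝ) • A) = A + M by module] at k

/-- a small positive number -/
theorem exists_small {ι : Type} (T : Finset ι) (a b : ι → ℝ) :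
    ∃ u : ℝ, 0 < u ∧ ∀ i ∈ T, 0 < a i → u * b i < a i := by
  have ev : ∀ᶠ u : ℝ in 𝓝 0, ∀ i ∈ T, 0 < a i → u * b i < a i := by
    refine (eventually_all_finset T).2 fun i _ => ?_
    by_cases p : 0 < a i
    · exact ((by fun_prop : Continuous fun u : ℝ => u * b i).continuousAt.eventually_lt
        continuousAt_const (by simpa using p)).mono fun _ q _ => q
    · exact .of_forall fun _ q => absurd q p
  obtain ⟨u, p, q⟩ := ((ev.filter_mono nhdsWithin_le_nhds).and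
    (self_mem_nhdsWithin (s := Ioi (0 : ℝ)))).exists
  exact ⟨u, q, p⟩

section lsm

variable {κ : BD K} {T : Finset (Pl K)} {h : Pl K → BD K} {b : Pl K → ℝ}

/-- the value of a boundary on a log smooth model -/
theorem ls_dsc (l : LS n Ω κ T h) (b : Pl K → ℝ) {P : Pl K} (o : On n Ω P) :
    dsc (n + 1) (κ + ∑ Q ∈ T, b Q • h Q) P = open Classical in if P ∈ T then -b P else 0 := by
  rw [Pr.dsc_add, l.d0 o, (l.hull_sum b).2 P o]
  split_ifs <;> simp

theorem ls_sup (l : LS n Ω κ T h) (b : Pl K → ℝ) :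
    Sup n Ω T (κ - (κ + ∑ Q ∈ T, b Q • h Q)) := by
  rw [sub_add_cancel_left]
  exact ⟨(l.hull_sum b).1.neg, fun P o q => by
    rw [Pi.neg_apply, (l.hull_sum b).2 P o, if_neg q, neg_zero]⟩

theorem ls_klt (l : LS n Ω κ T h) (h1 : ∀ P ∈ T, b P < 1) :
    Klt (n + 1) (κ + ∑ Q ∈ T, b Q • h Q) := fun Q => by
  have := l.gt (ls_sup l b) le_rfl one_pos (Q := Q) fun P p _ => by
    rw [ls_dsc l b (l.on P p), if_pos p]; linarith [h1 P p]
  linarith

theorem ls_bdy (l : LS n Ω κ T h) (h0 : ∀ P ∈ T, 0 ≤ b P) :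
    Bdy n Ω (κ + ∑ Q ∈ T, b Q • h Q) := fun P o => by
  rw [ls_dsc l b o]
  split_ifs with p
  exacts [neg_nonpos.2 (h0 P p), le_rfl]

theorem sum_smul' (c : ℝ) (b : Pl K → ℝ) :
    ∑ Q ∈ T, (c * b Q) • h Q = c • ∑ Q ∈ T, b Q • h Q := by
  rw [Finset.smul_sum]; exact Finset.sum_congr rfl fun Q _ => mul_smul _ _ _

/-- log smooth lc pairs plus an ample class are klt plus an ample class -/
theorem ls_adj (l : LS n Ω κ T h) (h0 : ∀ P ∈ T, 0 ≤ b P) (h1 : ∀ P ∈ T, b P ≤ 1)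
    (hA : AmpOn Ω A) : ∃ θ : ℝ, Klt (n + 1) (κ + θ • ∑ Q ∈ T, b Q • h Q) ∧
      Bdy n Ω (κ + θ • ∑ Q ∈ T, b Q • h Q) ∧
      AmpOn Ω (κ + ∑ Q ∈ T, b Q • h Q + A - (κ + θ • ∑ Q ∈ T, b Q • h Q)) := by
  obtain ⟨ε, e, k⟩ := hA.opn (l.hull_sum b).1
  have m0 := lt_min e one_pos
  have m1 := min_le_right ε 1
  refine ⟨1 - min ε 1, ?_, ?_, ?_⟩
  · rw [← sum_smul']
    exact ls_klt l fun P p => by nlinarith [h0 P p, h1 P p]
  · rw [← sum_smul']
    exact ls_bdy l fun P p => mul_nonneg (sub_nonneg.2 m1) (h0 P p)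
  · have := k (min ε 1) ((abs_of_pos m0).trans_le (min_le_left _ _))
    rwa [show κ + ∑ Q ∈ T, b Q • h Q + A - (κ + (1 - min ε 1) • ∑ Q ∈ T, b Q • h Q) =
      A + min ε 1 • ∑ Q ∈ T, b Q • h Q by module]

end lsm

/-- **DLT**: a model over `V Λ` which carries a klt pair and whose exceptional primes have log
discrepancy at most zero; the classes of `B` have hulls on it -/
theorem dlt (hM : MOD) (hN : NEG) (hr : RUN) (hK : FF K (n + 1)) (hΛ : Smp Λ) (hb : Big Λ)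
    (nM : Nef M) (hΓ : Dsc Λ (Γ + M)) (bd : Bdy n Λ Γ) :
    ∃ L Γ₀, Smp L ∧ Big L ∧ Dsc L Λ ∧ Dsc L Γ₀ ∧ Klt (n + 1) Γ₀ ∧ Bdy n L Γ₀ ∧
      ∀ P, On n L P → On n Λ P ∨ ld (n + 1) Γ P ≤ 0 := by
  classical
  obtain ⟨sM, hs⟩ := nM.exists_mx
  obtain ⟨s₁, -, a1⟩ := hΛ.exists_ampOn
  have cΓ : Γ ∈ Car K := by simpa using sub_mem hΓ.car nM.car
  obtain ⟨s, κ, T, h, l, -, sκ, sB, dΛ, ex⟩ := exists_lsx hM hK hΛ hb finite_empty
    (toFinite {Γ, M, mx sM}) (by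
      rintro β (rfl | rfl | rfl)
      exacts [cΓ, nM.car, mx_mem_Car _])
  have sΓ := sB Γ (.inl rfl)
  have dM := (sB M (.inr (.inl rfl))).1
  have ds := (sB _ (.inr (.inr rfl))).1
  obtain ⟨b, hb'⟩ : ∃ b : Pl K → ℝ, b = fun P =>
    if On n Λ P then min 1 (-dsc (n + 1) Γ P) else 1 := ⟨_, rfl⟩
  have b0 : ∀ P ∈ T, 0 ≤ b P := fun P _ => by
    rw [hb']; dsimp only; split_ifs with o
    exacts [le_min zero_le_one (neg_nonneg.2 (bd P o)), zero_le_one]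
  have b1 : ∀ P ∈ T, b P ≤ 1 := fun P _ => by
    rw [hb']; dsimp only; split_ifs
    exacts [min_le_left _ _, le_rfl]
  obtain ⟨Z, hZ⟩ : ∃ Z, Z = ∑ Q ∈ T, b Q • h Q := ⟨_, rfl⟩
  have dZ : Dsc (mx s) Z := hZ ▸ (l.hull_sum b).1
  have F0 : ∀ P, On n Λ P → On n (mx s) P → (κ + Z) P ≤ Γ P := fun P o o' => by
    have x := ls_dsc l b o'
    rw [← hZ] at x
    split_ifs at x with p
    · rw [hb'] at x
      simp only [dsc, Pi.sub_apply, if_pos o] at x
      linarith [min_le_right 1 (-(cn K (n + 1) P - Γ P))]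
    · have y := (sκ.sub sΓ).2 P o' p
      have z := l.d0 o'
      simp only [dsc, Pi.sub_apply] at x y z
      linarith
  have F1 : ∀ P ∈ T, ¬ On n Λ P → (κ + Z) P - Γ P = ld (n + 1) Γ P := fun P p o => by
    have x := ls_dsc l b (l.on P p)
    rw [← hZ, if_pos p, hb'] at x
    simp only [dsc, ld, Pi.sub_apply, if_neg o] at x ⊢
    linarith
  obtain ⟨ε, e, W, hW⟩ := hb.exists_eff l.smp.car
  obtain ⟨u, u0, hu⟩ := exists_small T (ld (n + 1) Γ) fun P => 2 * W P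
  have d1 : Dsc (mx s) (mx s₁) := dΛ.trans a1.1
  obtain ⟨U, hU, sub⟩ := exists_sp l.smp l.big (toFinite {κ, Z, M, mx s, mx s₁}) (by
    rintro β (rfl | rfl | rfl | rfl | rfl)
    exacts [sκ.1, dZ, dM, .refl l.smp, d1])
  have uκ : κ ∈ U := sub (by simp)
  have uZ : Z ∈ U := sub (by simp)
  have uM : M ∈ U := sub (by simp)
  have pre : Pre n (mx s) (κ + Z + M) := fun A hA => by
    obtain ⟨θ, x, y, z⟩ := ls_adj l b0 b1 (amp_add hs ds dM hA)
    rw [← hZ] at x y z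
    exact ⟨_, sκ.1.add (dZ.smul θ), x, y, by rwa [add_assoc (κ + Z), add_comm M]⟩
  obtain ⟨δ, δ0, hδ⟩ := (a1.big_iff.1 hb).opn ((sκ.1.add dZ).add dM).car
  obtain ⟨m, m1, m2⟩ : ∃ m : ℝ, (n + 2 : ℝ) ≤ m ∧ δ⁻¹ ≤ m := ⟨_, le_max_left _ _, le_max_right _ _⟩
  have m0 : 0 < m := (inv_pos.2 δ0).trans_le m2
  have ps : Psef (κ + Z + M + m • mx s₁) := by
    have := (hδ m⁻¹ (by rw [abs_of_pos (inv_pos.2 m0)]; exact inv_le_of_inv_le₀ δ0 m2)).smul m0
    rw [smul_add, smul_inv_smul₀ m0.ne', add_comm] at this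
    exact this.psef
  obtain ⟨A, uA, aA, aA', k, τ, Φ, r⟩ := hr n K hK (mx s) (κ + Z + M) 0 ((u * ε) • mx s) U s₁ m hU
    (add_mem (add_mem uκ uZ) uM) (zero_mem _) (U.smul_mem _ (sub (by simp))) (sub (by simp))
    (l.smp.ampOn_smul (mul_pos u0 e)) pre (by rwa [add_zero]) m1 ps (by rwa [add_zero])
  have t1 := r.lt 0 r.pos
  have c := r.chm 0 r.pos ((τ (0 + 1) + τ 0) / 2) (by linarith) (by linarith)
  have w := (r.wl 0 r.pos ((τ (0 + 1) + τ 0) / 2) (by linarith) (by linarith)).2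
  rw [smul_zero, add_zero] at c w
  obtain ⟨θ, x, y, z⟩ := ls_adj l b0 b1 (amp_add hs ds dM aA)
  rw [← hZ] at x y z
  have uΓ : κ + θ • Z ∈ U := add_mem uκ (U.smul_mem _ uZ)
  have le := c.pair_le (c := 1) uΓ (by
    rw [one_smul, show κ + Z + M + A + m • mx s₁ - (κ + θ • Z) =
      κ + Z + (A + M) - (κ + θ • Z) + m • mx s₁ by abel]
    exact z.nef.add ((nef_mx _).smul m0.le))
  obtain ⟨G, hG, G0⟩ := aA'.smp.exists_rep T.finite_toSet
  have key := le_hull hN hK hb c.smp.nef (γ := Γ + M + m • mx s₁ +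
      (G - ((2 : ℝ) • (u * ε) • mx s - A)) + (2 * u) • (W + ε • mx s))
    (((hΓ.add (a1.1.smul m)).add_prn hG.2).add (((Dsc.refl hΛ).congr (by
      rw [show W + ε • mx s - Λ = W - (Λ - ε • mx s) by abel]; exact hW.2)).smul _)) fun P o => by
      have p1 := c.le P
      have p2 := F0 P o (by
        obtain ⟨η, η0, q⟩ := dΛ.exists_sub
        exact on_mono res' hK hΛ dΛ o)
      have p3 : 0 ≤ G P := hG.1 P
      have p4 : 0 ≤ W P := hW.1 P
      simp only [Pi.add_apply, Pi.sub_apply, Pi.smul_apply, smul_eq_mul] at p1 p2 ⊢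
      nlinarith
  refine ⟨_, _, c.smp, c.big, w.trans a1.dsc', c.des _ uΓ, fun P => ?_, fun P o => ?_,
    fun P o => by_contra fun q => ?_⟩
  · have p1 := le P
    have p2 := c.le P
    have p3 := x P
    simp only [dsc, one_smul, Pi.sub_apply] at p1 p2 p3 ⊢
    linarith
  · have p1 := y P ((c.on P).1 o).1
    simp only [dsc, Pi.sub_apply] at p1 ⊢
    rwa [c.tr _ uΓ P ((c.on P).1 o).2]
  · rw [not_or, not_le] at q
    obtain ⟨o1, o2⟩ := (c.on P).1 o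
    have p : P ∈ T := by_contra fun p => q.1 (ex P o1 p)
    have p1 := key P
    have p2 := F1 P p q.1
    have p3 := hu P p q.2
    have p4 := G0 P p
    rw [o2] at p1
    simp only [Pi.add_apply, Pi.sub_apply, Pi.smul_apply, smul_eq_mul] at p1 p2
    nlinarith

end Vale.Agent.P283B.Acc
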