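import Vale.Agent.P283B.Spec
import Vale.Agent.P283B.GaSt
import Vale.Agent.P287D.Gs.Ful
import Vale.Agent.P287D.In.Bas
import Vale.Agent.P287D.Va.Fld

/-!
# P283B, block ACC: the volume input `WV`
-/

set_option linter.unusedVariables false

open Set Function
open Vale.Agent.P287D

noncomputable section

namespace Vale.Agent.P283B.Wv

variable {K : Type} [Field K] [Algebra ℂ K] {n : ℕ} {Λ β γ G Γ : BD K}

section rows

variable (hM : MOD) (hI : INT) (hV : VOL) (hN : NEG) (hK : FF K (n + 1))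

include hM hI hK in
theorem ml : In.MlOn (Car K) (I (n + 1) K) where
  add β i a b h x y := hI.add _ K hK β i a b ((hM.isb n K hK).1 a x) ((hM.isb n K hK).1 b y)
    (fun j => (hM.isb n K hK).1 _ (h j)) (fun j _ => h j) fun _ => ⟨x, y⟩
  smul β i c a h x := hI.smul _ K hK β i c a (fun j _ => h j) fun _ => x

include hM hI hK in
theorem vol_smul (c : ℝ) (a : β ∈ Car K) : vol (n + 1) (c • β) = c ^ (n + 1) * vol (n + 1) β := by
  simpa [vol] using (ml hM hI hK).smul_all (fun _ => c) (fun _ => β) fun _ => a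

include hV hK in
theorem not_big_zero : ¬ Big (0 : BD K) := fun h => by
  simpa [In.vol_succ, In.I_cons] using (hV.big _ K hK 0 Nef.zero).1 h

include hM hI hV hK in
/-- the volume of a nef and big integral Cartier divisor is at least one -/
theorem one_le_vol (h : β ∈ CarZ K) (hn : Nef β) (hb : Big β) : 1 ≤ vol (n + 1) β := by
  obtain ⟨z, hz⟩ := hI.int n K hK β (fun _ => β) (CarZ.int h) ((hM.isb n K hK).1 β hn.car)
    fun _ => h
  have p := (hV.big _ K hK β hn).1 hb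
  rw [In.vol_succ, hz] at p ⊢
  exact_mod_cast (show (0 : ℤ) < z by exact_mod_cast p)

include hM hV hK in
/-- a birational complete system has a big moving part -/
theorem exists_mx_of_bir (h : β ∈ Car K) (hb : Bir β) :
    ∃ s : Finset K, Nz s ∧ Big (mx s) ∧ mx s ≤ β ∧ ∀ f, Sec β f ↔ Sec (mx s) f := by
  have := hM.fin n K hK β ((hM.isb n K hK).1 β h)
  obtain ⟨s, hs⟩ := (Module.Finite.iff_fg (N := H0 β)).1 this
  have a : ∀ f, Sec β f → Sec (mx s) f := fun f hf => sec_of_span (hs ▸ mem_H0.2 hf)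
  have b : Big (mx s) := (big_iff_fld (eff_mx s)).2 (eq_top_iff.2 (hb ▸
    IntermediateField.adjoin_le_iff.2 fun x ⟨f, g, p, q, e⟩ => e ▸ (a f p).div_mem (a g q)))
  have c : Nz s := by_contra fun k => not_big_zero hV hK (mx_of_not k ▸ b)
  have d : mx s ≤ β := mx_le c fun f hf => mem_H0.1 (hs ▸ Submodule.subset_span hf)
  exact ⟨s, c, b, d, fun f => ⟨a f, fun k => k.mono d⟩⟩

include hM hI hV hK in
/-- a nef divisor with a birational system has volume at least one -/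
theorem one_le_vol_of_bir (h : Nef β) (hb : Bir β) : 1 ≤ vol (n + 1) β := by
  obtain ⟨s, -, b, c, -⟩ := exists_mx_of_bir hM hV hK h.car hb
  exact (one_le_vol hM hI hV hK (mx_mem_CarZ s) (nef_mx s) b).trans
    (hV.mono _ K hK _ _ (nef_mx s) h (Eff.of_nonneg (sub_nonneg.2 c)).psef)

include hM hN hK in
/-- an `ε`-lc Fano variety is a log Fano pair with the zero boundary -/
theorem lf_of_fa {ε : ℝ} (h : Ga.Fa n ε G) (q : ℕ) : LF n ε q (-G) G where
  pr := ⟨h.smp, h.big, by simpa using (Dsc.refl h.smp).neg, Gs.carQ_of hN hK h.smp h.big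
    (by simpa using (Dsc.refl h.smp).neg) fun P hP => by
      obtain ⟨z, hz⟩ := (hM.isb n K hK).2.2 P
      exact ⟨z, by rw [← sub_eq_zero.1 (h.on P hP), hz, Rat.cast_intCast]⟩,
    fun P hP => (h.on P hP).le⟩
  elc P _ := h.lc P
  cf P hP _ := ⟨0, by simp [ld, h.on P hP]⟩
  amp := .refl h.smp

include hM hK in
/-- the pair of a klt complement -/
theorem pr_of_klc {N : ℕ} {g : K} (hΛ : Smp Λ) (hb : Big Λ) (hΓ : Bdy n Λ Γ) (h0 : 0 < N)
    (h : KlC n N Γ All g) : Pr n Λ ((N : ℝ)⁻¹ • dv g) ∧ ELc n (N : ℝ)⁻¹ ((N : ℝ)⁻¹ • dv g) All ∧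
      Cf n Λ ((N : ℝ)⁻¹ • dv g) (Frq N) All := by
  have p : (0 : ℝ) < N := Nat.cast_pos.2 h0
  refine ⟨⟨hΛ, hb, (Dsc.dv hΛ g).smul _, by simpa using (carQ_dv g).qsmul (N : ℚ)⁻¹,
    fun P hP => ?_⟩, fun P _ => ?_, fun P _ _ => ?_⟩
  · have a := hΓ P hP
    have b := h.1.2 P trivial
    change cn K (n + 1) P - (N : ℝ)⁻¹ * P.ord g ≤ 0
    change cn K (n + 1) P - Γ P ≤ 0 at a
    rw [sub_nonpos, le_inv_mul_iff₀ p]
    nlinarith
  · obtain ⟨z, hz⟩ := (hM.isb n K hK).2.2 P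
    have b := h.2 P trivial
    change (N : ℝ)⁻¹ ≤ cn K (n + 1) P - (N : ℝ)⁻¹ * P.ord g + 1
    rw [hz] at b ⊢
    have c : P.ord g + 1 ≤ N * (z + 1) := by exact_mod_cast b
    have d : (P.ord g : ℝ) + 1 ≤ N * (z + 1) := by exact_mod_cast c
    rw [← sub_nonneg, ← mul_nonneg_iff_of_pos_left p]
    field_simp
    linarith
  · obtain ⟨z, hz⟩ := (hM.isb n K hK).2.2 P
    refine ⟨P.ord g - N * z, ?_⟩
    change 1 - (cn K (n + 1) P - (N : ℝ)⁻¹ * P.ord g + 1) = _
    rw [hz]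
    push_cast
    field_simp
    ring

end rows

/-- **WV** from effective birationality, the volume bound and klt complements -/
theorem wv (hM : MOD) (hI : INT) (hV : VOL) (hN : NEG) (eb : EB n) (vb : VB n) (kl : KLT n) :
    Ga.WV n := fun ε hε => by
  obtain ⟨V, hv⟩ := vb ε 1 hε one_pos
  obtain ⟨N, h0, hk⟩ := kl ε 1 hε one_pos
  obtain ⟨m, hm, he⟩ := eb (N : ℝ)⁻¹ N (by positivity) h0
  refine ⟨((m : ℝ) ^ (n + 1))⁻¹, V, by positivity, fun K _ _ hK G hG => ?_⟩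
  have l := lf_of_fa hM hN hK hG 1
  refine ⟨hv K hK _ _ l, fun β hβ hz => ?_⟩
  obtain ⟨g, hg⟩ := hk K hK _ _ l
  obtain ⟨a, b, c⟩ := pr_of_klc hM hK hG.smp hG.big l.pr.bdy h0 hg
  have p : (N : ℝ)⁻¹ • dv g ∈ Prn K := Submodule.smul_mem _ _ (dv_mem_Prn g)
  have e := one_le_vol_of_bir hM hI hV hK (hβ.nef.smul (Nat.cast_nonneg m)) (he K hK _ _ β a b c hβ
    (Gs.carQ_of hN hK hG.smp hG.big hβ.1 fun P hP => let ⟨z, hz⟩ := hz P hP; ⟨z, by simp [hz]⟩) hz
    (by simpa [sub_eq_add_neg] using hβ.nef.psef.add_prn (neg_mem p)) (hβ.nef.psef.add_prn p))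
  rw [vol_smul hM hI hK _ hβ.car] at e
  rwa [inv_le_iff_one_le_mul₀' (by positivity)]

/-- the log discrepancies `1 - b` of hyperstandard coefficients `b` -/
def PhiL (q : ℕ) : Set ℝ := {a | 1 - a ∈ Phi q}

theorem den_phi {q : ℕ} (h : 0 < q) : Ga.Den (PhiL q) := fun d hd => by
  refine ⟨q * (⌊d⁻¹⌋₊).factorial, Nat.mul_pos h (Nat.factorial_pos _), ?_⟩
  rintro a ⟨j, m, hj, hm, e⟩ ha
  have q0 : (0 : ℝ) < q := Nat.cast_pos.2 h
  have m0 : (0 : ℝ) < m := Nat.cast_pos.2 hm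
  have e' : a = j / (q * m) := by linarith
  have k : m ≤ ⌊d⁻¹⌋₊ := Nat.le_floor (by
    rw [e', le_div_iff₀ (by positivity)] at ha
    have : (j : ℝ) ≤ q := Nat.cast_le.2 hj
    rw [le_inv_comm₀ m0 hd, le_inv_comm₀ hd m0, ← one_div, le_div_iff₀ hd]
    nlinarith)
  obtain ⟨c, hc⟩ := Nat.dvd_factorial hm k
  refine ⟨j * c, ?_⟩
  rw [e', hc]
  push_cast
  field_simp

/-- the global ACC from the ACC on generic fibres -/
theorem ga0 (hM : MOD) {p : ℕ} {J : Set ℝ} {δ : ℝ} (h : Ga.GAR (n + 1) p J δ) : Ga.GA0 n p J δ :=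
  fun K _ _ hK Λ Γ M a b c d e f g P => by
  have k : ∀ P : Pl K, Hor (fld 0) P := fun P x hx => by
    obtain ⟨ε, e0, G, r⟩ := (mem_fld Eff.zero).1 hx
    have z := hM.zero n K hK (G + ε • pld x) (by simpa using r.2)
      (add_nonneg r.1 (smul_nonneg e0.le (pld_nonneg x)))
    have u := congrFun z P
    have v : 0 ≤ G P := r.1 P
    have w : 0 ≤ pld x P := pld_nonneg x P
    change G P + ε * pld x P = 0 at u
    exact pld_eq_zero.1 (by nlinarith)
  exact h n K hK Λ 0 Γ M a b .zero (.zero a) (Nat.le_add_right _ _) c d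
    ⟨0, by simpa using e.1, by simpa using e.2⟩ (fun P _ => f P) (fun P _ => g P) P (k P)

/-- the step **SWV** of the specification -/
theorem swv (hM : MOD) (hI : INT) (hV : VOL) (hN : NEG) : SWV := fun _ a b c _ =>
  wv hM hI hV hN a b c

end Vale.Agent.P283B.Wv
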