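import Vale.Agent.P283B.GaAr
import Vale.Agent.P283B.ACC.Wv
import Vale.Agent.P287D.Pb.Bas
import Vale.Agent.P287D.Cv.Rr

/-!
# P283B, block ACC: the generic fibre of `V Λ → V B`; the leaves FIB, HORP, CURVE
-/

set_option linter.unusedVariables false

open Set
open Vale.Agent.P287D

noncomputable section

namespace Vale.Agent.P283B.Ga

variable {K K' : Type} [Field K] [Algebra ℂ K] [Field K'] [Algebra ℂ K'] {n : ℕ}
  {Λ B β γ G Γ M : BD K}

/-- `K'` (of dimension `r + 1`) is the geometric generic fibre of `K` over the base `V B` -/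
structure Fb (n r : ℕ) (B : BD K) (φ : K →+* K') (f : K') : Prop where
  ff : FF K' (r + 1)
  dm : r + dim B = n
  gf : GF (fld B) φ
  ne : f ≠ 0
  prn : pb φ B ∈ Prn K'
  dn : ∀ P, ∃ Q, Lies φ P Q
  hor : ∀ P Q, Lies φ P Q → Hor (fld B) Q
  one : ∀ P Q, Lies φ P Q → P.ord (φ Q.t) = 1
  up : ∀ Q, Hor (fld B) Q → ∃ P, Lies φ P Q
  can : cn K' (r + 1) + dv f = pb φ (cn K (n + 1))
  on : ∀ Λ, Smp Λ → Big Λ → Dsc Λ B → ∀ P Q, Lies φ P Q → (On r (pb φ Λ) P ↔ On n Λ Q)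
  big : ∀ β ∈ Car K, Big (pb φ β) ↔ ∃ c : ℝ, Big (β + c • B)
  eff : ∀ β ∈ Car K, Eff (pb φ β) ↔ ∃ c : ℝ, Eff (β + c • B)

namespace Fb

variable {r : ℕ} {φ : K →+* K'} {f : K'} {P : Pl K'} {Q : Pl K} (h : Fb n r B φ f)
include h

theorem ok : Ok φ := fun P => .inr (h.dn P)

theorem val (l : Lies φ P Q) (β : BD K) : pb φ β P = β Q := by
  rw [l.pb, h.one P Q l, Int.cast_one, one_mul]

theorem dsc (l : Lies φ P Q) (Γ : BD K) :
    dsc (r + 1) (pb φ Γ - dv f) P = dsc (n + 1) Γ Q := by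
  have := congrFun h.can P
  simp only [P287D.dsc, Pi.sub_apply, Pi.add_apply, h.val l] at this ⊢
  linarith

theorem big' (k : Big β) (a : β ∈ Car K) : Big (pb φ β) := (h.big β a).2 ⟨0, by simpa using k⟩

theorem nef {c : ℝ} (k : Nef (c • B + β)) : Nef (pb φ β) :=
  (h.ok.nef k).congr (by simpa [pb_add, pb_smul] using (Prn K').smul_mem (-c) h.prn)

theorem num (k : NumO B β) : Num (pb φ β) :=
  let ⟨_, a, b⟩ := k
  ⟨h.nef a, by rw [← pb_neg]; exact h.nef (sub_eq_add_neg _ β ▸ b)⟩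

end Fb

/-- a semiample divisor which is not big has a smaller dimension -/
theorem dim_le (hF : FFS) (hV : VOL) (hL : FLD) (hK : FF K (n + 1)) (hB : Smp B) (nb : ¬ Big B) :
    dim B ≤ n := by
  obtain ⟨s, -, hs⟩ := exists_big hK
  by_contra k
  have := (hL.nd _ K hK B (mx s) (n + 1) hB (nef_mx s) hs le_rfl).2 (by omega)
  simp only [Fin.is_lt, if_true] at this
  exact nb ((hV.big _ K hK B hB.nef).2 this)

theorem exists_fb (hF : FFS) (hV : VOL) (hL : FLD) (hG : GEN) (hK : FF K (n + 1)) (hB : Smp B)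
    (nb : ¬ Big B) : ∃ (r : ℕ) (K' : Type) (_ : Field K') (_ : Algebra ℂ K') (φ : K →+* K')
      (f : K'), Fb n r B φ f := by
  obtain ⟨r, rfl⟩ : ∃ r, n = r + dim B := ⟨_, (Nat.sub_add_cancel (dim_le hF hV hL hK hB nb)).symm⟩
  obtain ⟨K', _, _, φ, g⟩ := hG.ex _ K hK _ (hL.cld _ K hK B hB)
  have l := hL.ff _ K hK B
  have hK1 : FF K (r + 1 + dim B) := Nat.add_right_comm r 1 (dim B) ▸ hK
  obtain ⟨f, f0, hf⟩ := hG.can _ (r + 1) K K' φ _ g l hK1
  obtain ⟨a, b⟩ := hG.orb _ K K' φ _ g hK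
  obtain ⟨B₀, c, d, e⟩ := hL.down _ K hK B hB
  have ok : Ok φ := fun P => .inr (let ⟨Q, x, _⟩ := a P; ⟨Q, x⟩)
  have u : ∀ P Q, Lies φ P Q → Hor (fld B) Q ∧ P.ord (φ Q.t) = 1 := fun P Q x => by
    obtain ⟨Q', y, z⟩ := a P
    rwa [x.uniq y]
  have z : pb φ (pb (inc (fld B)) B₀) = 0 := funext fun P => by
    obtain ⟨Q, x, y, -⟩ := a P
    rw [x.pb, Trv.pb (φ := inc (fld B)) (fun w => y w w.2), mul_zero, Pi.zero_apply]
  have w : ∀ (β : BD K) (t : ℝ), β + t • B - (β + t • pb (inc (fld B)) B₀) ∈ Prn K := fun β t => by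
    rw [add_sub_add_left_eq_sub, ← smul_sub]
    exact Submodule.smul_mem _ t e
  have w' : ∀ (β : BD K) (t : ℝ), β + t • pb (inc (fld B)) B₀ - (β + t • B) ∈ Prn K :=
    fun β t => by simpa using neg_mem (w β t)
  refine ⟨r, K', inferInstance, inferInstance, φ, f, hG.ff _ _ K K' φ _ g.toExt l hK1, rfl, g, f0,
    by simpa [pb_sub, z] using ok.prn e, fun P => let ⟨Q, x, _⟩ := a P; ⟨Q, x⟩,
    fun P Q x => (u P Q x).1, fun P Q x => (u P Q x).2, fun Q x => (b Q x).2.1,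
    by rw [hf, Nat.add_right_comm], fun Λ x y v P Q k =>
      (hG.on _ r K K' φ _ g l hK Λ B₀ x y c d (v.congr (by simpa using neg_mem e)) P Q k).1,
    fun β x => ?_, fun β x => ?_⟩
  · exact (hG.big _ K K' φ _ g.toExt hK B₀ β c d x).1.trans
      (exists_congr fun t => ⟨fun y => y.congr (w β t), fun y => y.congr (w' β t)⟩)
  · exact (hG.big _ K K' φ _ g.toExt hK B₀ β c d x).2.trans
      (exists_congr fun t => ⟨fun y => y.congr (w β t), fun y => y.congr (w' β t)⟩)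

theorem not_big_of_hor {P : Pl K} (h : Hor (fld B) P) : ¬ Big B := fun k =>
  P297Z.Pl.ring_ne_top P.toPlace (eq_top_iff.2 fun f _ => h f (k.fld_eq ▸ trivial))

/-- **FIB** -/
theorem fib (hF : FFS) (hV : VOL) (hL : FLD) (hG : GEN) : FIB :=
  fun N p J δ h n K _ _ hK Λ B Γ M a b c d e x y z u v Q hQ => by
  obtain ⟨r, K', _, _, φ, f, k⟩ := exists_fb hF hV hL hG hK c (not_big_of_hor hQ)
  obtain ⟨P, l⟩ := k.up Q hQ
  rw [← k.dsc l]
  refine h r (by have := k.dm; omega) K' k.ff (pb φ Λ) _ (pb φ M) (k.ok.smp a) (k.big' b a.car)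
    (k.ok.nef x) (pb_smul φ _ M ▸ k.ok.carZ y) ?_ (fun P => ?_) (fun P o => ?_) P
  · have := (k.num z).add (Num.of_prn (neg_mem (dv_mem_Prn f)))
    rwa [pb_add, add_right_comm, ← sub_eq_add_neg] at this
  · obtain ⟨Q, l⟩ := k.dn P
    exact k.dsc l Γ ▸ u Q (k.hor P Q l)
  · obtain ⟨Q, l⟩ := k.dn P
    exact k.dsc l Γ ▸ v Q (k.hor P Q l) ((k.on Λ a b d P Q l).1 o)

/-- **HORP** -/
theorem horp (hF : FFS) (hM : MOD) (hV : VOL) (hN : NEG) (hL : FLD) (hG : GEN) : HORP :=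
  fun n K _ _ hK Λ B β m a b c d e x y => by
  obtain ⟨r, K', _, _, φ, f, k⟩ := exists_fb hF hV hL hG hK c e
  by_contra z
  push Not at z
  have u := Gs.det hN k.ff (k.ok.smp a) (k.big' b a.car) (k.ok.dsc x).neg fun P o => by
    obtain ⟨Q, l⟩ := k.dn P
    rw [Pi.neg_apply, k.val l, neg_nonneg]
    exact z Q (k.hor P Q l) ((k.on Λ a b d P Q l).1 o)
  exact Wv.not_big_zero hV k.ff (((k.big β x.car).2 ⟨m, y⟩).mono (neg_nonneg.1 u))

/-- the arithmetic of global ACC on the line -/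
theorem curve_ar {p : ℕ} {J : Set ℝ} (hp : 0 < p) (hJ : Den J) : ∃ δ : ℝ, 0 < δ ∧
    ∀ {ι : Type} (U : Finset ι) (A : ι → ℝ) (c : ℕ) (m : ℤ), m ≤ 2 →
      (∀ R, 0 ≤ A R ∧ Co J δ (A R)) → ∑ R ∈ U, (1 - A R) + c / p = m →
      ∀ E ∈ U, A E = 0 ∨ δ < A E := by
  classical
  obtain ⟨γ, g0, g1, g2⟩ := cs_gap hJ hp
  obtain ⟨q, q0, hq⟩ := hJ (γ / 2) (half_pos g0)
  have p0 : (0 : ℝ) < p := Nat.cast_pos.2 hp
  have q1 : (0 : ℝ) < q := Nat.cast_pos.2 q0
  refine ⟨min (γ / 4) (2 * q * p)⁻¹, by positivity, fun U A c m hm hA e E hE => ?_⟩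
  by_contra k
  rw [not_or, not_lt, le_min_iff] at k
  have a0 := lt_of_le_of_ne (hA E).1 (Ne.symm k.1)
  have d1 := min_le_left (γ / 4) (2 * q * p : ℝ)⁻¹
  have m2 : (m : ℝ) ≤ 2 := by exact_mod_cast hm
  have c0 : (0 : ℝ) ≤ c / p := by positivity
  rw [← Finset.add_sum_erase _ _ hE] at e
  by_cases x : ∃ T ∈ U.erase E, A T < γ / 2
  · obtain ⟨T, hT, x⟩ := x
    rw [← Finset.add_sum_erase _ _ hT] at e
    have nn : ∀ R ∈ (U.erase E).erase T, 0 ≤ 1 - A R := fun R _ => sub_nonneg.2 (hA R).2.1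
    have y := g2 (∑ R ∈ (U.erase E).erase T, (1 - A R) + c / p) (add_mem (sum_mem fun R hR => by
      have := Finset.single_le_sum nn hR
      simpa using cs_term (p := p) (hA R).2 (by linarith [k.2.1]) 1) (cs_p c)) (by linarith [k.2.1])
    have z : (0 : ℝ) < (2 - m : ℤ) ∧ ((2 - m : ℤ) : ℝ) < 1 := by
      push_cast
      constructor <;> linarith [k.2.1, (hA T).1]
    have z' : 0 < 2 - m ∧ 2 - m < 1 := by exact_mod_cast z
    omega
  · push Not at x
    obtain ⟨z, hz⟩ : ∃ z : ℤ, (q : ℝ) * ∑ R ∈ U.erase E, (1 - A R) = z := by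
      rw [Finset.mul_sum]
      refine Finset.sum_induction _ (fun x : ℝ => ∃ z : ℤ, x = z) ?_ ⟨0, by simp⟩ fun R hR => ?_
      · rintro _ _ ⟨a, rfl⟩ ⟨b, rfl⟩
        exact ⟨a + b, by simp⟩
      · rcases (hA R).2.2 with y | y | y
        · exact ⟨0, by simp [y]⟩
        · obtain ⟨z, hz⟩ := hq _ y (x R hR)
          exact ⟨q - z, by push_cast; linarith⟩
        · linarith [x R hR]
    have y : q * p * A E = (q * p + p * z + q * c - q * p * m : ℤ) := by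
      push_cast
      rw [← hz, ← e]
      field_simp
      ring
    have u : q * p * A E < 1 := by
      have := k.2.2
      rw [← one_div, le_div_iff₀ (by positivity)] at this
      nlinarith [mul_pos (mul_pos q1 p0) a0]
    have v : 0 < q * p * A E := by positivity
    rw [y] at u v
    have u' : (q * p + p * z + q * c - q * p * m : ℤ) < 1 := by exact_mod_cast u
    have v' : 0 < (q * p + p * z + q * c - q * p * m : ℤ) := by exact_mod_cast v
    omega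

/-- **CURVE** -/
theorem curve : CURVE := fun p J hp hJ => by
  classical
  obtain ⟨δ, d0, h⟩ := curve_ar hp hJ
  refine ⟨δ, d0, fun K _ _ hK Λ Γ M a b c d e f g P => ?_⟩
  have p0 : (0 : ℝ) < p := Nat.cast_pos.2 hp
  have x : Γ ∈ Car K := by simpa using sub_mem e.car c.car
  have y := (Cv.car_iff hK).1 (sub_mem x (Cv.cn_car hK))
  obtain ⟨z, hz⟩ := Cv.I1_int hK d
  have z0 : (0 : ℝ) ≤ z := hz ▸ ((Cv.nef_iff hK).1 (c.smul p0.le)).2
  obtain ⟨z, rfl⟩ := Int.eq_ofNat_of_zero_le (show 0 ≤ z by exact_mod_cast z0)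
  have u := ((Cv.num_iff hK).1 e).2
  have v := Cv.I1_sub hK x (Cv.cn_car hK)
  rw [Cv.I1_smul] at hz
  rw [Cv.I1_add hK x c.car] at u
  rw [Cv.I1_cn hK, Cv.I1_eq, finsum_eq_sum_of_support_subset _
    (s := insert P y.toFinset) fun Q hQ => by simp [hQ]] at v
  refine (h (insert P y.toFinset) (fun Q => dsc 1 Γ Q + 1) z (2 - 2 * pg K 1) (by omega)
    (fun Q => ⟨by linarith [f Q], g Q (Cv.on0 Λ Q)⟩) ?_ P (Finset.mem_insert_self _ _)).imp_left
    fun k => by linarith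
  have w : (z : ℝ) / p = I1 M := by
    rw [div_eq_iff p0.ne', mul_comm, hz, Int.cast_natCast]
  rw [w, Finset.sum_congr rfl (g := fun Q => (Γ - cn K 1) Q) fun Q _ => by simp [dsc], v]
  push_cast
  linarith

end Vale.Agent.P283B.Ga
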