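import Vale.Agent.P283B.Spec
import Vale.Agent.P283B.GaB
import Vale.Agent.P283B.ACC.Adj
import Vale.Agent.P283B.ACC.Fib
import Vale.Agent.P287D.Gf.Six
import Vale.Agent.P287D.Gf.Vp

/-!
# P283B, block GA: the step SGA
-/

open Set
open Vale.Agent.P287D

noncomputable section

namespace Vale.Agent.P283B

namespace Ga

/-- **HORP** -/
theorem horp' : HORP := fun n K _ _ hK Λ B β m hΛ hb hB dB nb dβ big => by
  by_contra w
  have f := fin_pos hK hΛ hb dβ.car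
  have k : ∀ P, ∃ G, Rep B G ∧ (On n Λ P ∧ 0 < β P → 0 < G P) := fun P => by
    by_contra z
    refine w ⟨P, hor_of_rep hB.eff fun G r => le_antisymm (not_lt.1 fun e => z ⟨G, r, fun _ => e⟩)
      (r.1 P), by_contra fun e => ?_⟩
    obtain ⟨G, r⟩ := hB.eff
    exact z ⟨G, r, fun y => absurd y e⟩
  choose G r p using k
  have dG : Dsc B (∑ P ∈ f.toFinset, G P) := Dsc.sum hB _ fun P _ => (Dsc.refl hB).congr (r P).2
  obtain ⟨c, -, le⟩ := dom hK hb dβ (dB.trans dG) (Finset.sum_nonneg fun P _ => (r P).1)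
    fun P o e => by
      rw [Finset.sum_apply]
      exact (p P ⟨o, e⟩).trans_le (Finset.single_le_sum (f := fun R => G R P)
        (fun R _ => (r R).1 P) (f.mem_toFinset.2 ⟨o, e⟩))
  exact nb (((dG.smul c).add ((Dsc.refl hB).smul m)).big (big.mono (add_le_add_left le _)))

/-- **FIB** -/
theorem fib' : FIB := fun N p I δ h n K _ _ hK Λ B Γ M hΛ hb hB dB hN nM pM num lc co P hP => by
  obtain ⟨c, c1, c2⟩ := num
  obtain ⟨K', _, _, φ, g⟩ := gen_ex _ K hK (fld B) (cld_fld B)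
  obtain ⟨r, m, e, g⟩ := g.gfd hK
  have er : dim B = r := Api.ffs.uniq r _ g.fl _ (ff_fld hK B)
  obtain ⟨P', hP'⟩ := (g2 _ _ _ _ _ _ g).2.2.1 P hP
  obtain ⟨m, rfl⟩ := Ba.ff_succ g.ff P'
  obtain rfl : n = r + m := by omega
  obtain ⟨B₀, s0, b0, e0⟩ := fld_down hK hB
  have ok := g.ok
  obtain ⟨f, -, ef⟩ := g4 _ _ _ _ _ _ g
  have d : ∀ P' Q, Lies φ P' Q → dsc (m + 1) (pb φ Γ + dv f) P' = dsc (r + m + 1) Γ Q :=
    fun P' Q k => by
      have x := ((g2 _ _ _ _ _ _ g).2.1 P' Q k).2.2.1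
      rw [dsc, dsc, ef, add_sub_add_right_eq_sub, ← pb_sub, x]
      rfl
  have pB : pb φ B ∈ Prn K' := by
    have := ok.prn e0
    rwa [pb_sub, Gx.pb_base g.toExt ok, sub_zero] at this
  have q := sub_mem (dv_mem_Prn f) ((Prn K').smul_mem c pB)
  have q' := sub_mem (neg_mem (dv_mem_Prn f)) ((Prn K').smul_mem c pB)
  have key := h m (by omega) K' g.ff (pb φ Λ) (pb φ Γ + dv f) (pb φ M) (ok.smp hΛ)
    (Gx.big_pb ok g.gen hb) (ok.nef nM) (pb_smul φ _ M ▸ ok.carZ pM)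
    ⟨(ok.nef c1).congr (by
      rw [pb_add, pb_add, pb_smul]
      convert q using 1
      abel), (ok.nef c2).congr (by
      rw [pb_sub, pb_add, pb_smul]
      convert q' using 1
      abel)⟩ (fun R => ?_) (fun R o => ?_) P'
  · rwa [d P' P hP'] at key
  · obtain ⟨Q, k⟩ := (g2 _ _ _ _ _ _ g).1 R
    exact d R Q k ▸ lc Q ((g2 _ _ _ _ _ _ g).2.1 R Q k).1
  · obtain ⟨Q, k⟩ := (g2 _ _ _ _ _ _ g).1 R
    exact d R Q k ▸ co Q ((g2 _ _ _ _ _ _ g).2.1 R Q k).1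
      ((Gx.on_fib Api.mod res' Api.vol Api.pb g2 g2b g3 (g3b Api.mod Api.neg) g b0 s0
        (dB.congr (by simpa using neg_mem e0)) k).1.1 o)

theorem gaf {N : ℕ} (w : ∀ m < N, WV m) : GAF N := gaf_of curve fib' adj' vert folh horp' w

theorem acc {N : ℕ} (w : ∀ m < N, WV m) : ACC N := acc_of curve fib' adj' vert folh horp' w

end Ga

/-- **SGA** -/
theorem sga : SGA := fun _ w => ⟨Ga.gaf w, Ga.acc w⟩

end Vale.Agent.P283B
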