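import Vale.Agent.P283B.ACC.Wv
import Vale.Agent.P287D.Hd.Cm
import Vale.Agent.P287D.Ru.Unr
import Vale.Agent.P287D.Pb.Res

/-!
# P283B, block ACC: cyclic covers; the torsion of the class group of a Fano variety is bounded
-/

set_option linter.unusedVariables false
set_option linter.unusedSectionVars false

open Set Polynomial
open Vale.Agent.P287D

noncomputable section

namespace Vale.Agent.P283B.Wv

variable {K : Type} [Field K] [Algebra ℂ K] {n : ℕ} {Λ β γ G Γ Z : BD K}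

/-- a root of `h` of order `l` generates an extension which is unramified where `l ∣ ord h` -/
theorem unr_root {K' : Type} [Field K'] [Algebra ℂ K'] {φ : K →+* K'} {θ : K'} {h : K} {l : ℕ}
    (h0 : h ≠ 0) (hl : 0 < l) (e : θ ^ l = φ h) (g : Subfield.closure (range φ ∪ {θ}) = ⊤)
    {P : Pl K'} {Q : Pl K} (k : Lies φ P Q) (d : (l : ℤ) ∣ Q.ord h) : P.ord (φ Q.t) = 1 := by
  obtain ⟨z, hz⟩ := d
  have t0 : φ Q.t ≠ 0 := (_root_.map_ne_zero φ).2 Q.t_ne
  have θ0 : θ ≠ 0 := fun x => by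
    rw [x, zero_pow hl.ne', eq_comm, _root_.map_eq_zero] at e
    exact h0 e
  have u0 : h / Q.t ^ ((l : ℤ) * z) ≠ 0 := div_ne_zero h0 (zpow_ne_zero _ Q.t_ne)
  have u1 : Q.ord (h / Q.t ^ ((l : ℤ) * z)) = 0 := by
    rw [P297Z.Pl.ord_div _ h0 (zpow_ne_zero _ Q.t_ne), Q.ord_t_zpow, hz, sub_self]
  have a0 : θ / φ Q.t ^ z ≠ 0 := div_ne_zero θ0 (zpow_ne_zero _ t0)
  have a1 : (θ / φ Q.t ^ z) ^ l = φ (h / Q.t ^ ((l : ℤ) * z)) := by
    rw [div_pow, e, map_div₀, map_zpow₀, mul_comm, zpow_mul, zpow_natCast]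
  have a2 : P.ord (θ / φ Q.t ^ z) = 0 := by
    have := congrArg P.ord a1
    rw [P297Z.Pl.ord_pow, k.ord, u1, mul_zero] at this
    exact (mul_eq_zero.1 this).resolve_left (Nat.cast_ne_zero.2 hl.ne')
  have := Ru.unr k (Cb.mem_ord a2.ge) (X ^ l - C ⟨_, Cb.mem_ord u1.ge⟩) (by simp [a1])
    (z := P.t) (by
      simp only [derivative_sub, derivative_X_pow, derivative_C, sub_zero, eval₂_mul, eval₂_pow,
        eval₂_X, map_natCast, eval₂_natCast]
      have l0 : (l : K') ≠ 0 := by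
        rw [← map_natCast (algebraMap ℂ K')]
        exact (_root_.map_ne_zero _).2 (Nat.cast_ne_zero.2 hl.ne')
      rw [Cb.mx_iff, not_or, P297Z.Pl.ord_mul _ l0 (pow_ne_zero _ a0), P297Z.Pl.ord_pow, a2,
        ← map_natCast (algebraMap ℂ K'), P.ord_const]
      exact ⟨mul_ne_zero (by rwa [map_natCast]) (pow_ne_zero _ a0), by simp⟩) (by
      have : Subfield.closure (range φ ∪ {θ}) ≤
          Subfield.closure (range φ ∪ {θ / φ Q.t ^ z}) := Subfield.closure_le.2 (by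
        rintro y (x | x)
        · exact Subfield.subset_closure (.inl x)
        · have := mul_mem (Subfield.subset_closure (s := range φ ∪ {θ / φ Q.t ^ z}) (.inr rfl))
            (Subfield.subset_closure (s := range φ ∪ {θ / φ Q.t ^ z}) (.inl ⟨Q.t ^ z, rfl⟩))
          rw [map_zpow₀, div_mul_cancel₀ _ (zpow_ne_zero _ t0)] at this
          exact (mem_singleton_iff.1 x).symm ▸ this)
      exact this (g ▸ trivial))
  rw [P.ord_t] at this
  exact Int.eq_one_of_dvd_one k.e_pos.le this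

/-- the cyclic cover -/
theorem exists_root (hK : FF K n) {h : K} {l : ℕ} (h0 : h ≠ 0) (hl : 0 < l) :
    ∃ (K' : Type) (_ : Field K') (_ : Algebra ℂ K') (_ : Algebra K K') (_ : IsScalarTower ℂ K K')
      (θ : K'), FF K' n ∧ FiniteDimensional K K' ∧ θ ^ l = algebraMap K K' h ∧
      Subfield.closure (range (algebraMap K K') ∪ {θ}) = ⊤ := by
  obtain ⟨f, hf, hd⟩ := exists_irreducible_of_degree_pos (f := (X ^ l - C h : K[X]))
    (by rw [degree_X_pow_sub_C hl]; exact_mod_cast hl)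
  have := Fact.mk hf
  have fd : FiniteDimensional K (AdjoinRoot f) := (AdjoinRoot.powerBasis hf.ne_zero).finite
  refine ⟨AdjoinRoot f, inferInstance, inferInstance, inferInstance, inferInstance,
    AdjoinRoot.root f, Hd.ff_up hK, fd, ?_, eq_top_iff.2 fun x _ => ?_⟩
  · have := (AdjoinRoot.mk_eq_zero (f := f)).2 hd
    rw [map_sub, map_pow, AdjoinRoot.mk_X, AdjoinRoot.mk_C, sub_eq_zero] at this
    exact this
  · induction x using AdjoinRoot.induction_on with
    | ih p =>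
      induction p using Polynomial.induction_on with
      | C a => exact Subfield.subset_closure (.inl ⟨a, rfl⟩)
      | add p q a b => rw [map_add]; exact add_mem (a trivial) (b trivial)
      | monomial m a k =>
        rw [pow_succ, ← mul_assoc, map_mul, AdjoinRoot.mk_X]
        exact mul_mem (k trivial) (Subfield.subset_closure (.inr rfl))

section fin

variable {K' : Type} [Field K'] [Algebra ℂ K'] [Algebra K K'] [IsScalarTower ℂ K K']

theorem cst_lin (c : ℂ) : algebraMap K K' (algebraMap ℂ K c) = algebraMap ℂ K' c :=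
  (IsScalarTower.algebraMap_apply ℂ K K' c).symm

theorem ok_fin (hK' : FF K' n) : Ok (algebraMap K K') := hK'.ok (IsScalarTower.toAlgHom ℂ K K')

theorem lies_fin [FiniteDimensional K K'] (hK' : FF K' n) (P : Pl K') :
    ∃ Q, Lies (algebraMap K K') P Q := Hd.exists_ov hK' P

/-- the norm of a root -/
theorem dv_norm [FiniteDimensional K K'] {θ : K'} {h : K} {l : ℕ} (h0 : h ≠ 0) (hl : 0 < l)
    (e : θ ^ l = algebraMap K K' h) (k : (l : ℝ) • Z = dv h) :
    ∃ a : K, a ≠ 0 ∧ (Module.finrank K K' : ℝ) • Z = dv a := by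
  have x : Algebra.norm K θ ^ l = h ^ Module.finrank K K' := by
    rw [← map_pow, e, Algebra.norm_algebraMap]
  refine ⟨Algebra.norm K θ, fun y => ?_, ?_⟩
  · rw [y, zero_pow hl.ne'] at x
    exact pow_ne_zero _ h0 x.symm
  · have y := congrArg dv x
    rw [dv_pow, dv_pow, ← k, smul_comm] at y
    exact (smul_right_injective _ (Nat.cast_ne_zero.2 hl.ne') y).symm

variable (hF : FFS) (hM : MOD) (hR : RES) (hV : VOL) (hP : PB)

include hM hP in
theorem vol_fin (hK : FF K n) (hK' : FF K' n) (h : β ∈ Car K) :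
    vol n (pb (algebraMap K K') β) = Module.finrank K K' * vol n β := by
  refine hP.deg n K K' hK hK' (fun _ => β) (fun j => ?_) fun _ _ => h
  obtain _ | m := n
  · exact j.elim0
  · exact (hM.isb m K hK).1 β h

include hM hV hP in
theorem big_fin [FiniteDimensional K K'] (hK : FF K n) (hK' : FF K' n) (h : Nef β) :
    Big (pb (algebraMap K K') β) ↔ Big β := by
  rw [hV.big n K hK β h, hV.big n K' hK' _ ((ok_fin hK').nef h), vol_fin hM hP hK hK' h.car,
    mul_pos_iff_of_pos_left (Nat.cast_pos.2 Module.finrank_pos)]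

include hF hM hR hV hP in
/-- the prime divisors of a finite cover lie over prime divisors -/
theorem on_fin (hK : FF K (n + 1)) (hK' : FF K' (n + 1)) (hΛ : Smp Λ) {P : Pl K'} {Q : Pl K}
    (l : Lies (algebraMap K K') P Q) (o : On n (pb (algebraMap K K') Λ) P) : On n Λ Q := by
  have a := hF.rsd n K hK Q
  have b := hF.rsd n K' hK' P
  have c := (hP.rst n n K K' _ hK hK' cst_lin P Q _ l l.isRd Λ hΛ.car).1
  have d := ((hR.on n K' hK' _ P ((ok_fin hK').smp hΛ)).1 o).congr (by simpa using neg_mem c)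
  let : Algebra Q.κ P.κ := l.κ.toAlgebra
  have : IsScalarTower ℂ Q.κ P.κ := .of_algebraMap_eq fun x => by
    change _ = l.κ _
    rw [← Cb.rd_const, ← Cb.rd_const, l.isRd _ (Q.con x), cst_lin]
  have e := (hV.big n _ b _ ((ok_fin b).nef (hR.nef n K hK Q Λ hΛ.nef))).1 d
  rw [vol_fin hM hP a b (In.res_car _ _)] at e
  exact (pos_iff_pos_of_mul_pos e).1 (lt_of_le_of_ne (Nat.cast_nonneg _) fun z => by simp [← z] at e)

include hF hM hR hV hP in
/-- covers which are unramified in codimension one -/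
theorem fa_fin [FiniteDimensional K K'] (hK : FF K (n + 1)) (hK' : FF K' (n + 1)) {ε : ℝ}
    (h0 : 0 ≤ ε) (h : Ga.Fa n ε G)
    (u : ∀ P Q, Lies (algebraMap K K') P Q → On n (-G) Q → P.ord (algebraMap K K' Q.t) = 1) :
    ∃ f : K', Ga.Fa n ε (pb (algebraMap K K') G - dv f) := by
  obtain ⟨f, f0, hf⟩ := hP.hur (n + 1) K K' _ hK hK' cst_lin
  have e : -(pb (algebraMap K K') G - dv f) - pb (algebraMap K K') (-G) ∈ Prn K' := by
    simpa [pb_neg] using dv_mem_Prn f
  have s := (ok_fin hK').smp h.smp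
  have k : ∀ P Q, Lies (algebraMap K K') P Q → dsc (n + 1) (pb (algebraMap K K') G - dv f) P + 1 =
      P.ord (algebraMap K K' Q.t) * (dsc (n + 1) G Q + 1) := fun P Q l => by
    have := hf P Q l
    simp only [dsc, Pi.sub_apply, Pi.add_apply, l.pb] at this ⊢
    linarith
  refine ⟨f, s.congr e, ((big_fin hM hV hP hK hK' h.smp.nef).2 h.big).congr e, fun P o => ?_,
    fun P => ?_⟩
  · obtain ⟨Q, l⟩ := lies_fin (K := K) hK' P
    have o' := on_fin hF hM hR hV hP hK hK' h.smp l ((hR.on n K' hK' _ P s).2 (by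
      have x := (hR.on n K' hK' _ P (s.congr e)).1 o
      have y := hR.des n K' hK' _ _ P (s.ampOn_congr e).1
      exact y.big x))
    have := k P Q l
    rw [u P Q l o', h.on Q o'] at this
    simpa using this
  · obtain ⟨Q, l⟩ := lies_fin (K := K) hK' P
    have x : (1 : ℝ) ≤ P.ord (algebraMap K K' Q.t) := by exact_mod_cast l.e_pos
    rw [k P Q l]
    nlinarith [h.lc Q]

end fin

/-- a real principal divisor with rational trace has a principal multiple -/
theorem prn_rat (hN : NEG) (hK : FF K (n + 1)) (hΛ : Smp Λ) (hb : Big Λ) (h : Z ∈ Prn K)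
    (hq : ∀ P, On n Λ P → ∃ q : ℚ, Z P = q) :
    ∃ (m : ℕ) (f : K), 0 < m ∧ f ≠ 0 ∧ (m : ℝ) • Z = dv f := by
  obtain ⟨T, a, h0, rfl⟩ := mem_Prn.1 h
  obtain ⟨π, hπ⟩ := (Algebra.linearMap ℚ ℝ).exists_leftInverse_of_injective
    (LinearMap.ker_eq_bot.2 (algebraMap ℚ ℝ).injective)
  have p : ∀ q : ℚ, π (q : ℝ) = q := fun q => LinearMap.congr_fun hπ q
  have k : ∀ (c : K → ℝ) P, (∑ f ∈ T, c f • dv f) P = ∑ f ∈ T, (P.ord f : ℚ) • c f := fun c P => by
    rw [Finset.sum_apply]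
    exact Finset.sum_congr rfl fun f _ => by
      rw [Pi.smul_apply, dv_apply, Rat.smul_def, Rat.cast_intCast, smul_eq_mul, mul_comm]
  rw [show ∑ f ∈ T, a f • dv f = ∑ f ∈ T, (π (a f) : ℝ) • dv f from
    Gs.det_eq hN hK hΛ hb (.of_prn hΛ h) (Dsc.sum hΛ T fun f _ => (Dsc.dv hΛ f).smul _)
      fun P hP => by
        obtain ⟨r, e⟩ := hq P hP
        rw [e]
        rw [k] at e ⊢
        rw [← p r, ← e, map_sum, Rat.cast_sum]
        exact Finset.sum_congr rfl fun i _ => by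
          rw [map_smul, smul_eq_mul, Rat.cast_mul, Rat.smul_def]]
  refine Finset.sum_induction _ (fun β : BD K => ∃ (m : ℕ) (f : K), 0 < m ∧ f ≠ 0 ∧
    (m : ℝ) • β = dv f) ?_ ⟨1, 1, one_pos, one_ne_zero, by simp⟩ fun f hf =>
      ⟨(π (a f)).den, f ^ (π (a f)).num, (π (a f)).pos, zpow_ne_zero _ (h0 f hf), ?_⟩
  · rintro a b ⟨m, f, h1, h2, h3⟩ ⟨k, g, h4, h5, h6⟩
    refine ⟨m * k, f ^ k * g ^ m, Nat.mul_pos h1 h4,
      mul_ne_zero (pow_ne_zero _ h2) (pow_ne_zero _ h5), ?_⟩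
    rw [dv_mul (pow_ne_zero _ h2) (pow_ne_zero _ h5), dv_pow, dv_pow, ← h3, ← h6, smul_smul,
      smul_smul, mul_comm (k : ℝ), ← smul_add, Nat.cast_mul]
  · rw [dv_zpow, smul_smul]
    congr 1
    exact_mod_cast (π (a f)).den_mul_eq_num

/-- **TORS**: the torsion of the class group of an `ε`-lc Fano variety is bounded -/
def TORS (n : ℕ) : Prop := ∀ ε : ℝ, 0 < ε → ∃ r : ℕ, 0 < r ∧ ForN n fun K _ _ => ∀ G Z : BD K,
  Ga.Fa n ε G → Z ∈ Prn K → ZOn n (-G) Z → ∃ h : K, h ≠ 0 ∧ (r : ℝ) • Z = dv h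

theorem tors (hF : FFS) (hM : MOD) (hR : RES) (hV : VOL) (hN : NEG) (hP : PB) (w : Ga.WV n) :
    TORS n := fun ε hε => by
  obtain ⟨v, V, v0, hw⟩ := w ε hε
  refine ⟨(⌊V / v⌋₊).factorial, Nat.factorial_pos _, fun K _ _ hK G Z hG hZ hz => ?_⟩
  obtain ⟨l, h, hl, h0, e⟩ := prn_rat hN hK hG.smp hG.big hZ fun P hP =>
    let ⟨z, hz⟩ := hz P hP; ⟨z, by simp [hz]⟩
  obtain ⟨K', _, _, _, _, θ, hK', _, a, b⟩ := exists_root hK h0 hl
  obtain ⟨f, hf⟩ := fa_fin hF hM hR hV hP hK hK' hε.le hG fun P Q k o => unr_root h0 hl a b k (by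
    obtain ⟨z, hz⟩ := hz Q o
    have := congrFun e Q
    rw [Pi.smul_apply, hz, dv_apply, smul_eq_mul] at this
    exact ⟨z, by exact_mod_cast this.symm⟩)
  obtain ⟨c, c0, hc⟩ := dv_norm h0 hl a e
  have x := (hw K' hK' _ hf).1
  have y := (hw K hK G hG).2 (-G) (.refl hG.smp) fun P o => by
    obtain ⟨z, hz⟩ := (hM.isb n K hK).2.2 P
    exact ⟨-z, by rw [Pi.neg_apply, ← sub_eq_zero.1 (hG.on P o), hz, Int.cast_neg]⟩
  have x' := (hV.mono _ K' hK' _ _ ((ok_fin hK').nef hG.smp.nef) hf.smp.nef (Eff.of_prn (by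
    simpa [pb_neg] using dv_mem_Prn f)).psef).trans x
  rw [vol_fin hM hP hK hK' hG.smp.car] at x'
  obtain ⟨j, hj⟩ := Nat.dvd_factorial (Module.finrank_pos (R := K) (M := K'))
    (Nat.le_floor ((le_div_iff₀ v0).2 ((mul_le_mul_of_nonneg_left y (Nat.cast_nonneg _)).trans x')))
  exact ⟨c ^ j, pow_ne_zero _ c0, by rw [dv_pow, ← hc, smul_smul, hj, Nat.cast_mul, mul_comm]⟩

end Vale.Agent.P283B.Wv
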